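import Vale.Agent.P257.H702.Final
import Vale.Agent.P257.H545.FinalP
import Vale.Agent.P251.M.BGlueD

/-!
# P257: the main theorem from its packages

* `exists_mu` : `MU` with its universal property and its orientation;
* `smithTodaExists_four_of` : `V(4)` exists at `p`, from the packages.
-/

open CategoryTheory MonoidalCategory Limits Pretriangulated MonObj

universe v u

noncomputable section

namespace Vale.Agent.P257.Main

open Vale.Agent.P251 Vale.Agent.P251.T Vale.Agent.P251.F Vale.Agent.P251.I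
  Vale.Agent.P251.M Vale.Agent.P257.H314 Vale.Agent.P257.H712 Vale.Agent.P257.H545
open Vale.Agent.P251.S hiding IC

/-- `MU`, with its universal property and with its orientation. -/
theorem exists_mu {T : Type u} [Category.{v} T] [Preadditive T] [HasZeroObject T]
    [HasShift T ℤ] [∀ n : ℤ, (shiftFunctor T n).Additive] [Pretriangulated T] [IsTriangulated T]
    [MonoidalCategory T] [SymmetricCategory T] [TensorTriangulated T] [MonoidalClosed T]
    [HasCoproducts.{0} T] [HasProducts.{0} T] [StableCat T] (F : SpaceFunctor T)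
    (e : F.S.obj CCF ≅ (stdEven T).L) :
    ∃ D : MUData T, MUUniv e D ∧ ∃ o : Vale.Agent.P251.Q.Orientation (thK e D.R),
      ∀ s, D.ev s = amEv e D.R o s := by
  obtain ⟨M⟩ := nonempty_MUMon F (stdEven T) e
  obtain ⟨b⟩ := M.nonempty_muBasis
  exact ⟨M.data b, M.muUniv b, M.orient, fun s => rfl⟩

/-- The geometric input: the relation `α₁ β₁^p ≡ 0` modulo `p`. -/
def TodaInput (p : ℕ) : Prop :=
  ∀ (T : Type u) [Category.{v} T] [Preadditive T] [HasZeroObject T]
    [HasShift T ℤ] [∀ n : ℤ, (shiftFunctor T n).Additive] [Pretriangulated T] [IsTriangulated T]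
    [MonoidalCategory T] [SymmetricCategory T] [TensorTriangulated T] [MonoidalClosed T]
    [HasCoproducts.{0} T] [HasProducts.{0} T] [StableCat T] (F : SpaceFunctor T)
    (D : MUData T) (o : Vale.Agent.P251.Q.Orientation (thK (M.lineIso F) D.R)),
    (∀ s, D.ev s = amEv (M.lineIso F) D.R o s) → ∀ U : UnitCof D.R, TodaRel p D U

/-- The `k = 1` step. -/
def StepInput (p : ℕ) : Prop :=
  ∀ (T : Type u) [Category.{v} T] [Preadditive T] [HasZeroObject T]
    [HasShift T ℤ] [∀ n : ℤ, (shiftFunctor T n).Additive] [Pretriangulated T] [IsTriangulated T]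
    [MonoidalCategory T] [SymmetricCategory T] [TensorTriangulated T] [MonoidalClosed T]
    [HasCoproducts.{0} T] [HasProducts.{0} T] [StableCat T]
    (D : MUData T) (U : UnitCof D.R) (C₀ : T) (iC₀ : 𝟙_ T ⟶ C₀), AlgStep1 p →
    ∀ (V : T) (i : 𝟙_ T ⟶ V), IsST D p iC₀ 4 i → Step1 p U i

/-- **The main theorem from its packages.** -/
theorem smithTodaExists_four_of {T : P251.St.SHCat} (S : P251.St.Susp T) {p : ℕ}
    (hp : p.Prime) (h11 : 11 ≤ p) (hF : ∀ [Fact p.Prime], FactsP p) (hII : TodaInput.{0, 1} p)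
    (hS : StepInput.{0, 1} p) : P257.St.SmithTodaExists S p 4 := by
  have : Fact p.Prime := ⟨hp⟩
  obtain ⟨D, hD, o, ho⟩ := exists_mu S.toSpaceFunctor (M.lineIso S.toSpaceFunctor)
  obtain ⟨U⟩ := exists_unitCof D.R
  obtain ⟨C, iC, δ, hC⟩ := distinguished_cocone_triangle ((p : ℤ) • 𝟙 (𝟙_ T.C))
  obtain ⟨V, i, hV⟩ := exists_V4P U h11 hC hF (hII T.C S.toSpaceFunctor D o ho U)
    (hS T.C D U C iC)
  exact H702.smithTodaExists_of_isST hp hD hV

end Vale.Agent.P257.Main
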