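import Vale.Agent.P257.Main.VFour
import Vale.Agent.P257.H702.HasV
import Vale.Agent.P257.H545.StepIn
import Vale.Agent.P257.H762.MHasV

/-!
# P257: `V(4)` exists at every prime `p ≥ 11`, final form

`hasV_four` : `HasV S p 4` for every prime `p ≥ 11`.
-/

open CategoryTheory MonoidalCategory Limits Pretriangulated MonObj

noncomputable section

namespace Vale.Agent.P257.Main

open Vale.Agent.P251 Vale.Agent.P251.T Vale.Agent.P251.F Vale.Agent.P251.I
  Vale.Agent.P251.M Vale.Agent.P257.H314 Vale.Agent.P257.H712 Vale.Agent.P257.H545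
open Vale.Agent.P251.S hiding IC

/-- `V(4)` exists at every prime `p ≥ 11`. -/
theorem hasV_four {T : P251.St.SHCat} (S : P251.St.Susp T) {p : ℕ}
    (hp : p.Prime) (h11 : 11 ≤ p) : P257.St.HasV S p 4 := by
  have : Fact p.Prime := ⟨hp⟩
  obtain ⟨D, hD, ⟨U'⟩, -⟩ := H80.exists_muAll S.toSpaceFunctor (M.lineIso S.toSpaceFunctor)
  obtain ⟨U⟩ := exists_unitCof D.R
  obtain ⟨C, iC, δ, hC⟩ := distinguished_cocone_triangle ((p : ℤ) • 𝟙 (𝟙_ T.C))
  obtain ⟨V, i, hV⟩ := exists_V4P U h11 hC (factsP h11)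
    (H163.todaRel S.toSpaceFunctor D U (by omega) hC)
    (H545.stepInput hp h11 (fun {_} => factsP h11) T.C D U C iC)
  exact H702.hasV_of_isST (by omega) hD U' hV

/-- `V(4)` exists at every prime `p ≥ 11` (version with the homotopy ring of `BP`). -/
theorem smithTodaExists_four {T : P251.St.SHCat} (S : P251.St.Susp T) {p : ℕ}
    (hp : p.Prime) (h11 : 11 ≤ p) : P257.St.SmithTodaExists S p 4 := by
  have : Fact p.Prime := ⟨hp⟩
  exact smithTodaExists_four_of S hp h11 (factsP h11) (H163.todaInput hp (by omega))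
    (H545.stepInput hp h11 (fun {_} => factsP h11))

end Vale.Agent.P257.Main
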