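import Vale.Agent.P257.Main.Glue
import Vale.Agent.P257.H163.Input
import Vale.Agent.P257.H919.Fields
import Vale.Agent.P257.H254.GammaP
import Vale.Agent.P257.H941.Beta
import Vale.Agent.P257.H604.Alpha
import Vale.Agent.P257.H319.Delta

/-!
# P257: `V(4)` exists at every prime `p ≥ 11`
-/

namespace Vale.Agent.P257.Main

open Vale.Agent.P257.H314 Vale.Agent.P257.H545

/-- The facts on the cohomology of the dual reduced powers. -/
theorem factsP {p : ℕ} [Fact p.Prime] (h11 : 11 ≤ p) : FactsP p :=
  H919.factsP h11 (H604.vanP_alpha h11) (H941.vanP_beta h11) (H254.gammaP h11) (H319.delta h11)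

/-- `V(4)` exists, from the `k = 1` step. -/
theorem smithTodaExists_four' {T : P251.St.SHCat} (S : P251.St.Susp T) {p : ℕ}
    (hp : p.Prime) (h11 : 11 ≤ p) (hS : StepInput.{0, 1} p) : P257.St.SmithTodaExists S p 4 :=
  smithTodaExists_four_of S hp h11 (factsP h11) (H163.todaInput hp (by omega)) hS

end Vale.Agent.P257.Main
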